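import Vale.Agent.N103X.C2
import Mathlib.Dynamics.TopologicalEntropy.NetEntropy

section

/-!
# P103: zero entropy with arbitrarily large homology eigenvalues on one fixed manifold

The iterates of the zero entropy counterexample.
-/

namespace Vale.Agent.N103X.H308

open Filter Topology CategoryTheory AlgebraicTopology
open scoped Manifold ContDiff TensorProduct

section Entropy

variable {M : Type} [MetricSpace M]

theorem bddAbove_dn (f : M → M) (n : ℕ) (x y : M) :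
    BddAbove (Set.range fun j : Fin n => dist (f^[j] x) (f^[j] y)) :=
  Set.Finite.bddAbove (Set.finite_range _)

theorem dn_iter_le (f : M → M) {k : ℕ} (hk : 1 ≤ k) (n : ℕ) (x y : M) :
    dn (f^[k]) n x y ≤ dn f (n * k) x y := by
  unfold dn
  rcases Nat.eq_zero_or_pos n with rfl | hn
  · have h1 : IsEmpty (Fin (0 * k)) := by rw [Nat.zero_mul]; infer_instance
    rw [Real.iSup_of_isEmpty, Real.iSup_of_isEmpty]
  · have : Nonempty (Fin n) := ⟨⟨0, hn⟩⟩
    refine ciSup_le fun j => ?_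
    have hlt : k * (j : ℕ) < n * k := by
      rw [Nat.mul_comm n k]
      exact Nat.mul_lt_mul_of_pos_left j.2 hk
    have h := le_ciSup (bddAbove_dn f (n * k) x y) ⟨k * (j : ℕ), hlt⟩
    simpa only [Function.iterate_mul] using h

theorem sepCard_iter_le (f : M → M) {k : ℕ} (hk : 1 ≤ k) (n : ℕ) (ε : ℝ) :
    sepCard (f^[k]) n ε ≤ sepCard f (n * k) ε := by
  unfold sepCard
  refine iSup₂_le fun E hE => ?_
  exact le_iSup₂_of_le E (fun x hx y hy hxy => (hE x hx y hy hxy).trans_le (dn_iter_le f hk n x y))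
    le_rfl

theorem sepCard_anti (f : M → M) (n : ℕ) {ε ε' : ℝ} (h : ε' ≤ ε) :
    sepCard f n ε ≤ sepCard f n ε' := by
  unfold sepCard
  refine iSup₂_le fun E hE => ?_
  exact le_iSup₂_of_le E (fun x hx y hy hxy => h.trans_lt (hE x hx y hy hxy)) le_rfl

theorem one_le_sepCard [Nonempty M] (f : M → M) (n : ℕ) (ε : ℝ) : 1 ≤ sepCard f n ε := by
  obtain ⟨x⟩ := ‹Nonempty M›
  unfold sepCard
  refine le_iSup₂_of_le ({x} : Finset M) ?_ ?_
  · intro a ha b hb hab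
    rw [Finset.mem_singleton] at ha hb
    exact absurd (ha.trans hb.symm) hab
  · simp

/-- the growth rate at scale `ε` -/
noncomputable def gr (f : M → M) (ε : ℝ) : EReal :=
  limsup (fun n : ℕ => ENNReal.log (sepCard f n ε : ENNReal) / (n : EReal)) atTop

theorem isTopEntropy_iff (f : M → M) (h : EReal) :
    IsTopEntropy f h ↔ Tendsto (gr f) (𝓝[>] 0) (𝓝 h) := Iff.rfl

theorem log_nonneg [Nonempty M] (f : M → M) (n : ℕ) (ε : ℝ) :
    0 ≤ ENNReal.log (sepCard f n ε : ENNReal) := by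
  rw [← ENNReal.log_one]
  apply ENNReal.log_monotone
  have h := one_le_sepCard f n ε
  exact_mod_cast h

theorem term_nonneg [Nonempty M] (f : M → M) (n : ℕ) (ε : ℝ) :
    0 ≤ ENNReal.log (sepCard f n ε : ENNReal) / (n : EReal) :=
  EReal.div_nonneg (log_nonneg f n ε) (by exact_mod_cast Nat.zero_le n)

theorem gr_nonneg [Nonempty M] (f : M → M) (ε : ℝ) : 0 ≤ gr f ε := by
  unfold gr
  refine le_limsup_of_frequently_le ?_ ?_
  · exact Frequently.of_forall fun n => term_nonneg f n ε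
  · isBoundedDefault

theorem gr_anti (f : M → M) {ε ε' : ℝ} (h : ε' ≤ ε) : gr f ε ≤ gr f ε' := by
  unfold gr
  refine limsup_le_limsup (Eventually.of_forall fun n => ?_) (by isBoundedDefault)
    (by isBoundedDefault)
  refine EReal.div_le_div_right_of_nonneg (by exact_mod_cast Nat.zero_le n) ?_
  apply ENNReal.log_monotone
  exact_mod_cast sepCard_anti f n h

theorem gr_le_zero {f : M → M} (hf : IsTopEntropy f 0) {ε : ℝ} (hε : 0 < ε) : gr f ε ≤ 0 := by
  have h1 : Tendsto (gr f) (𝓝[>] 0) (𝓝 0) := hf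
  refine ge_of_tendsto h1 ?_
  filter_upwards [Ioc_mem_nhdsGT hε] with ε' hε'
  exact gr_anti f hε'.2

theorem gr_iter_le_zero [Nonempty M] {f : M → M} (hf : IsTopEntropy f 0) {k : ℕ} (hk : 1 ≤ k)
    {ε : ℝ} (hε : 0 < ε) : gr (f^[k]) ε ≤ 0 := by
  have h0 := gr_le_zero hf hε
  refine EReal.le_of_forall_lt_iff_le.mp fun z hz => ?_
  have hz' : (0 : ℝ) < z := by exact_mod_cast hz
  have hk' : (0 : ℝ) < k := by exact_mod_cast hk
  have hzk : (0 : EReal) < ((z / k : ℝ) : EReal) := by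
    exact_mod_cast div_pos hz' hk'
  have h1 : gr f ε < ((z / k : ℝ) : EReal) := h0.trans_lt hzk
  have h2 : ∀ᶠ n : ℕ in atTop,
      ENNReal.log (sepCard f n ε : ENNReal) / (n : EReal) < ((z / k : ℝ) : EReal) :=
    eventually_lt_of_limsup_lt h1 (by isBoundedDefault)
  have h3 : Tendsto (fun n : ℕ => n * k) atTop atTop :=
    tendsto_id.atTop_mul_const' (by omega)
  have h4 := (h3.eventually h2).and (eventually_ge_atTop 1)
  unfold gr
  refine limsup_le_of_le (by isBoundedDefault) ?_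
  filter_upwards [h4] with n hn
  obtain ⟨hn1, hn2⟩ := hn
  have hn' : (0 : ℝ) < n := by exact_mod_cast hn2
  have e1 : (0 : EReal) < ((n * k : ℕ) : EReal) := by
    exact_mod_cast Nat.mul_pos hn2 hk
  have e2 : ((n * k : ℕ) : EReal) ≠ ⊤ := EReal.natCast_ne_top _
  have h5 : ENNReal.log (sepCard f (n * k) ε : ENNReal) < ((z / k : ℝ) : EReal) *
      ((n * k : ℕ) : EReal) := by
    have h := (EReal.div_lt_iff e1 e2).mp hn1
    simpa only [mul_comm] using h
  have h6 : ((z / k : ℝ) : EReal) * ((n * k : ℕ) : EReal) = ((z * n : ℝ) : EReal) := by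
    have : ((n * k : ℕ) : EReal) = (((n * k : ℕ) : ℝ) : EReal) := by norm_cast
    rw [this, ← EReal.coe_mul]
    congr 1
    push_cast
    field_simp
  have h7 : ENNReal.log (sepCard (f^[k]) n ε : ENNReal) ≤
      ENNReal.log (sepCard f (n * k) ε : ENNReal) := by
    apply ENNReal.log_monotone
    exact_mod_cast sepCard_iter_le f hk n ε
  have e3 : (0 : EReal) < (n : EReal) := by exact_mod_cast hn2
  refine (EReal.div_le_iff_le_mul e3 (EReal.natCast_ne_top _)).mpr ?_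
  refine h7.trans (h5.le.trans (le_of_eq ?_))
  rw [h6]
  have : (n : EReal) = ((n : ℝ) : EReal) := by norm_cast
  rw [this, ← EReal.coe_mul]
  first
    | rfl
    | (congr 1; ring)

/-- an iterate of a map with zero entropy has zero entropy -/
theorem isTopEntropy_iter [Nonempty M] {f : M → M} (hf : IsTopEntropy f 0) {k : ℕ}
    (hk : 1 ≤ k) : IsTopEntropy (f^[k]) 0 := by
  rw [isTopEntropy_iff]
  refine tendsto_const_nhds.congr' ?_
  filter_upwards [self_mem_nhdsWithin] with ε hε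
  exact le_antisymm (gr_nonneg _ ε) (gr_iter_le_zero hf hk hε)

end Entropy

/-- the iterate as a continuous map -/
def powC {M : Type} [TopologicalSpace M] (f : C(M, M)) (k : ℕ) : C(M, M) :=
  ⟨f^[k], f.continuous.iterate k⟩

theorem powC_succ {M : Type} [TopologicalSpace M] (f : C(M, M)) (k : ℕ) :
    powC f (k + 1) = (powC f k).comp f := by
  ext x
  rfl

theorem homologyMap_powC {M : Type} [TopologicalSpace M] (f : C(M, M)) (i : ℕ)
    {l : ℝ} (x : ((singularHomologyFunctor (ModuleCat.{0} ℝ) i).obj (ModuleCat.of ℝ ℝ)).obj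
      (TopCat.of M)) (hx : homologyMap i f x = l • x) (k : ℕ) :
    homologyMap i (powC f k) x = (l ^ k) • x := by
  induction k with
  | zero =>
    have h : powC f 0 = ContinuousMap.id M := by ext y; rfl
    rw [h, pow_zero, one_smul]
    exact Hm.hm_id i x
  | succ k ih =>
    have h := Hm.hm_comp i (powC f k) f x
    rw [powC_succ]
    refine h.trans ?_
    change homologyMap i (powC f k) (homologyMap i f x) = _
    rw [hx, map_smul, ih, smul_smul, pow_succ, mul_comm]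

theorem contMDiff_iter {E : Type} [NormedAddCommGroup E] [NormedSpace ℝ E]
    {H : Type} [TopologicalSpace H] {I : ModelWithCorners ℝ E H}
    {M : Type} [TopologicalSpace M] [ChartedSpace H M] {f : M → M}
    (hf : ContMDiff I I 1 f) (k : ℕ) : ContMDiff I I 1 (f^[k]) := by
  induction k with
  | zero => exact contMDiff_id
  | succ k ih =>
    rw [Function.iterate_succ]
    exact ih.comp hf

end Vale.Agent.N103X.H308
end

section

/-!
# P103: polynomial growth of separated sets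
-/

namespace Vale.Agent.N103X.S

open Filter Topology Vale.Agent.N103X

variable {M M' : Type} [MetricSpace M] [MetricSpace M']

def Sep (f : M → M) (n : ℕ) (ε : ℝ) (E : Finset M) : Prop :=
  ∀ x ∈ E, ∀ y ∈ E, x ≠ y → ε < dn f n x y

def Poly (f : M → M) : Prop :=
  ∀ ε : ℝ, 0 < ε → ∃ C D : ℕ, ∀ (n : ℕ) (E : Finset M), Sep f n ε E → E.card ≤ C * (n + 1) ^ D

theorem dn_le {f : M → M} {n : ℕ} {x y : M} {ε : ℝ} (hε : 0 ≤ ε) :
    dn f n x y ≤ ε ↔ ∀ j < n, dist (f^[j] x) (f^[j] y) ≤ ε :=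
  ⟨fun h j hj => (le_ciSup (H308.bddAbove_dn f n x y) ⟨j, hj⟩).trans h,
    fun h => Real.iSup_le (fun j => h j j.2) hε⟩

theorem exists_net (X : Type) [MetricSpace X] [CompactSpace X] {ε : ℝ} (hε : 0 < ε) :
    ∃ (N : ℕ) (net : X → Fin N), ∀ x y, net x = net y → dist x y ≤ ε := by
  obtain ⟨t, -, hfin, ht⟩ := finite_cover_balls_of_compact (isCompact_univ (X := X)) (half_pos hε)
  have hc : ∀ y : X, ∃ i : t, dist y i < ε / 2 := by
    intro y
    obtain ⟨i, hi, h⟩ := Set.mem_iUnion₂.1 (ht (Set.mem_univ y))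
    exact ⟨⟨i, hi⟩, h⟩
  choose c hc using hc
  have : Finite t := hfin
  refine ⟨Nat.card t, fun x => Finite.equivFin t (c x), fun x y h => ?_⟩
  have h1 := hc x
  rw [(Finite.equivFin t).injective h] at h1
  have h2 := dist_triangle_right x y (c y)
  linarith [hc y]

theorem code_bound {f : M → M} {n : ℕ} {ε : ℝ} (hε : 0 < ε) {N : ℕ} (net : M → Fin N)
    (hnet : ∀ x y, net x = net y → dist x y ≤ ε) {K : Type} [Fintype K] (κ : M → K)
    (B : M → Finset ℕ) {T : ℕ} (hB : ∀ x, (B x).card ≤ T)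
    (h : ∀ x y, κ x = κ y → ∀ j < n, j ∉ B x → j ∉ B y → dist (f^[j] x) (f^[j] y) ≤ ε)
    {E : Finset M} (hE : Sep f n ε E) : E.card ≤ Fintype.card K * (n * N + 1) ^ T := by
  classical
  let S : M → Finset (Fin n × Fin N) := fun x =>
    (Finset.univ.filter fun j : Fin n => (j : ℕ) ∈ B x).image fun j => (j, net (f^[j] x))
  have hS : ∀ x, (S x).card ≤ T := fun x => Finset.card_image_le.trans
    ((Finset.card_le_card_of_injOn (fun j : Fin n => (j : ℕ)) (fun j hj => by simpa using hj)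
      Fin.val_injective.injOn).trans (hB x))
  let φ : M → Fin T → Option (Fin n × Fin N) := fun x i => (S x).toList[(i : ℕ)]?
  have hφ : ∀ x y, φ x = φ y → S x ⊆ S y := by
    intro x y hxy b hb
    obtain ⟨i, hi, hib⟩ := List.getElem_of_mem (Finset.mem_toList.mpr hb)
    have hiT : i < T := lt_of_lt_of_le hi (by rw [Finset.length_toList]; exact hS x)
    have h1 : φ x ⟨i, hiT⟩ = some b := by
      simp only [φ]
      rw [List.getElem?_eq_getElem hi, hib]
    rw [hxy] at h1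
    exact Finset.mem_toList.mp (List.mem_of_getElem? h1)
  have key : ∀ x y, φ x = φ y → ∀ j < n, j ∈ B x → dist (f^[j] x) (f^[j] y) ≤ ε := by
    intro x y hxy j hj hb
    have h1 : ((⟨j, hj⟩ : Fin n), net (f^[j] x)) ∈ S x :=
      Finset.mem_image.2 ⟨⟨j, hj⟩, by simpa using hb, rfl⟩
    obtain ⟨i, -, hi⟩ := Finset.mem_image.1 (hφ x y hxy h1)
    obtain ⟨rfl, h2⟩ := Prod.ext_iff.1 hi
    exact hnet _ _ h2.symm
  have hcard : E.card ≤ Fintype.card (K × (Fin T → Option (Fin n × Fin N))) := by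
    rw [← Finset.card_univ]
    refine Finset.card_le_card_of_injOn (fun x => (κ x, φ x)) (fun x _ => by simp)
      fun x hx y hy hxy => ?_
    obtain ⟨h1, h2⟩ := Prod.ext_iff.1 hxy
    by_contra hne
    refine (hE x hx y hy hne).not_ge ((dn_le hε.le).2 fun j hj => ?_)
    by_cases a : j ∈ B x
    · exact key x y h2 j hj a
    by_cases b : j ∈ B y
    · rw [dist_comm]
      exact key y x h2.symm j hj b
    · exact h x y h1 j hj a b
  simpa using hcard

theorem Poly.iter {f : M → M} (h : Poly f) {k : ℕ} (hk : 1 ≤ k) : Poly f^[k] := by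
  intro ε hε
  obtain ⟨C, D, hC⟩ := h ε hε
  refine ⟨C * k ^ D, D, fun n E hE => (hC (n * k) E fun x hx y hy hxy =>
    (hE x hx y hy hxy).trans_le (H308.dn_iter_le f hk n x y)).trans ?_⟩
  rw [mul_assoc, ← mul_pow]
  gcongr
  nlinarith

theorem Poly.retract [CompactSpace M] [CompactSpace M'] {f : M → M} (h : Poly f) {i : M → M'}
    {r : M' → M} (hi : Continuous i) (hr : ∀ x, r (i x) = x) : Poly (i ∘ f ∘ r) := by
  classical
  intro ε hε
  obtain ⟨δ, hδ, hu⟩ := Metric.uniformContinuous_iff.1 (CompactSpace.uniformContinuous_of_continuous hi)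
    ε hε
  obtain ⟨C, D, hC⟩ := h (δ / 2) (half_pos hδ)
  obtain ⟨N, net, hnet⟩ := exists_net M' hε
  have hit : ∀ j x, (i ∘ f ∘ r)^[j + 1] x = i (f^[j + 1] (r x)) := by
    intro j x
    induction j with
    | zero => rfl
    | succ j ih => rw [Function.iterate_succ_apply', ih, Function.iterate_succ_apply' f (j + 1)]; simp [hr]
  refine ⟨N * C, D, fun n E hE => ?_⟩
  have key : ∀ x ∈ E, ∀ y ∈ E, net x = net y → dn f n (r x) (r y) ≤ δ / 2 → x = y := by
    intro x hx y hy h1 h2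
    by_contra hne
    refine (hE x hx y hy hne).not_ge ((dn_le hε.le).2 fun j hj => ?_)
    rcases j with _ | j
    · exact hnet x y h1
    · rw [hit, hit]
      exact (hu (((dn_le (half_pos hδ).le).1 h2 _ hj).trans_lt (half_lt_self hδ))).le
  have h2 : ∀ c ∈ (Finset.univ : Finset (Fin N)),
      (E.filter fun x => net x = c).card ≤ C * (n + 1) ^ D := by
    intro c _
    have hinj : Set.InjOn r (E.filter fun x => net x = c) := by
      intro x hx y hy hxy
      simp only [Finset.coe_filter, Set.mem_ofPred_eq] at hx hy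
      refine key x hx.1 y hy.1 (hx.2.trans hy.2.symm) ((dn_le (half_pos hδ).le).2 fun j _ => ?_)
      rw [hxy, dist_self]
      exact (half_pos hδ).le
    rw [← Finset.card_image_of_injOn hinj]
    refine hC n _ fun a ha b hb hab => ?_
    obtain ⟨x, hx, rfl⟩ := Finset.mem_image.1 ha
    obtain ⟨y, hy, rfl⟩ := Finset.mem_image.1 hb
    rw [Finset.mem_filter] at hx hy
    exact not_le.1 fun hle => hab (by rw [key x hx.1 y hy.1 (hx.2.trans hy.2.symm) hle])
  have h3 := Finset.card_le_mul_card_image_of_maps_to (f := net) (s := E) (t := Finset.univ)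
    (fun _ _ => Finset.mem_univ _) _ h2
  rw [Finset.card_univ, Fintype.card_fin] at h3
  refine h3.trans (le_of_eq ?_)
  ring

theorem coverEntropy_zero [Nonempty M] {f : M → M} (h : IsTopEntropy f 0) :
    Dynamics.coverEntropy f Set.univ = 0 := by
  refine le_antisymm ?_ (Dynamics.coverEntropy_nonneg f Set.univ_nonempty)
  rw [Dynamics.coverEntropy_eq_iSup_netEntropyEntourage]
  refine iSup₂_le fun U hU => ?_
  obtain ⟨ε, hε, hεU⟩ := Metric.mem_uniformity_dist.1 hU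
  refine le_trans ?_ (H308.gr_le_zero h (half_pos hε))
  refine ExpGrowth.expGrowthSup_monotone fun n => ENat.toENNReal_mono ?_
  refine iSup₂_le fun s hs => le_iSup₂_of_le s (fun x hx y hy hxy => not_le.1 fun hle => ?_) le_rfl
  refine Set.disjoint_left.1 (hs.2 hx hy hxy) (?_ : y ∈ _) ?_
  · exact Dynamics.mem_ball_dynEntourage.2 fun k hk =>
      hεU (((dn_le (half_pos hε).le).1 hle k hk).trans_lt (half_lt_self hε))
  · exact Dynamics.mem_ball_dynEntourage.2 fun k _ => hεU (by simpa using hε)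

end Vale.Agent.N103X.S
end

section

/-!
# P103: the map on `S³ × S² × S^(2p)`
-/

namespace Vale.Agent.N103X.S

open Filter Topology Vale.Agent.N103X
open scoped Manifold

abbrev E4 : Type := WithLp 2 (ℂ × ℂ)

abbrev S3 : Type := Metric.sphere (0 : E4) 1

instance factS3 : Fact (Module.finrank ℝ E4 = 3 + 1) := ⟨by
  rw [(WithLp.linearEquiv 2 ℝ (ℂ × ℂ)).finrank_eq, Module.finrank_prod,
    Complex.finrank_real_complex]⟩

def zz (s : S3) : ℂ := s.1.fst

def ww (s : S3) : ℂ := s.1.snd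

theorem zw (s : S3) : ‖zz s‖ ^ 2 + ‖ww s‖ ^ 2 = 1 := by
  have h := mem_sphere_zero_iff_norm.mp s.2
  have h2 := WithLp.prod_norm_sq_eq_of_L2 s.1
  rw [h] at h2
  simpa [zz, ww] using h2.symm

theorem contMDiff_zz : ContMDiff (𝓡 3) 𝓘(ℝ, ℂ) 1 zz :=
  (contDiff_fst.comp (WithLp.prodContinuousLinearEquiv 2 ℝ ℂ ℂ).contDiff).contMDiff.comp
    contMDiff_coe_sphere

theorem contMDiff_ww : ContMDiff (𝓡 3) 𝓘(ℝ, ℂ) 1 ww :=
  (contDiff_snd.comp (WithLp.prodContinuousLinearEquiv 2 ℝ ℂ ℂ).contDiff).contMDiff.comp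
    contMDiff_coe_sphere

theorem dist_S3 (s t : S3) : dist s t ≤ ‖zz s - zz t‖ + ‖ww s - ww t‖ := by
  rw [Subtype.dist_eq, dist_eq_norm]
  have h := WithLp.prod_norm_sq_eq_of_L2 (s.1 - t.1)
  refine le_of_sq_le_sq (h.le.trans ?_) (by positivity)
  change ‖zz s - zz t‖ ^ 2 + ‖ww s - ww t‖ ^ 2 ≤ _
  nlinarith [norm_nonneg (zz s - zz t), norm_nonneg (ww s - ww t)]

def LL (ω : Circle) (x : E4) : E4 := WithLp.toLp 2 (2 * ω * x.fst, ω * x.snd)

theorem LL_ne (ω : Circle) (s : S3) : LL ω s.1 ≠ 0 := by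
  intro h
  have h1 : 2 * ω * zz s = 0 := congrArg WithLp.fst h
  have h2 : ω * ww s = 0 := congrArg WithLp.snd h
  have h3 := zw s
  simp only [mul_eq_zero, OfNat.ofNat_ne_zero, Circle.coe_ne_zero, or_self, false_or] at h1 h2
  simp [h1, h2] at h3

noncomputable def RR (ω : Circle) (s : S3) : S3 :=
  ⟨‖LL ω s.1‖⁻¹ • LL ω s.1, by simp [norm_smul, LL_ne ω s]⟩

theorem contMDiff_RR (ω : Circle) : ContMDiff (𝓡 3) (𝓡 3) 1 (RR ω) := by
  have h1 : ContDiff ℝ 1 (LL ω) :=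
    (WithLp.prodContinuousLinearEquiv 2 ℝ ℂ ℂ).symm.contDiff.comp
      ((contDiff_const.mul (contDiff_fst.comp
        (WithLp.prodContinuousLinearEquiv 2 ℝ ℂ ℂ).contDiff)).prodMk
      (contDiff_const.mul (contDiff_snd.comp (WithLp.prodContinuousLinearEquiv 2 ℝ ℂ ℂ).contDiff)))
  have h2 : ContMDiff (𝓡 3) 𝓘(ℝ, E4) 1 fun s : S3 => ‖LL ω s.1‖⁻¹ • LL ω s.1 := fun s => by
    have h3 : ContDiffAt ℝ 1 (fun x => ‖LL ω x‖⁻¹ • LL ω x) s.1 :=
      ((h1.contDiffAt.norm ℝ (LL_ne ω s)).inv (norm_ne_zero_iff.2 (LL_ne ω s))).smul h1.contDiffAt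
    exact h3.contMDiffAt.comp s contMDiff_coe_sphere.contMDiffAt
  exact h2.codRestrict_sphere fun s => (RR ω s).2

theorem RR_iter (ω : Circle) (s : S3) (j : ℕ) : ∃ c : ℝ, 0 < c ∧
    zz ((RR ω)^[j] s) = (c * 2 ^ j : ℝ) * (ω ^ j : Circle) * zz s ∧
    ww ((RR ω)^[j] s) = c * (ω ^ j : Circle) * ww s := by
  induction j with
  | zero => exact ⟨1, one_pos, by simp, by simp⟩
  | succ j ih =>
    obtain ⟨c, hc, h1, h2⟩ := ih
    rw [Function.iterate_succ_apply']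
    set t := (RR ω)^[j] s
    have h0 := norm_pos_iff.2 (LL_ne ω t)
    refine ⟨‖LL ω t.1‖⁻¹ * c, by positivity, ?_, ?_⟩
    · change ‖LL ω t.1‖⁻¹ • (2 * ω * zz t) = _
      rw [h1, Complex.real_smul, pow_succ ω]
      push_cast
      ring
    · change ‖LL ω t.1‖⁻¹ • (ω * ww t) = _
      rw [h2, Complex.real_smul, pow_succ ω]
      push_cast
      ring

noncomputable def ang (z : ℂ) : Circle := Circle.exp (Complex.arg z)

theorem norm_mul_ang (z : ℂ) : (‖z‖ : ℂ) * ang z = z := Complex.norm_mul_exp_arg_mul_I z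

theorem ang_eq {r : ℝ} (hr : 0 < r) (ζ : Circle) : ang (r * ζ) = ζ := by
  have h := norm_mul_ang (r * ζ)
  rw [norm_mul, Circle.norm_coe, mul_one, Complex.norm_real, Real.norm_of_nonneg hr.le] at h
  exact Circle.ext (mul_left_cancel₀ (by exact_mod_cast hr.ne') h)

theorem ang_mul {r : ℝ} (hr : 0 < r) (ζ : Circle) {z : ℂ} (hz : z ≠ 0) :
    ang (r * ζ * z) = ζ * ang z := by
  rw [← ang_eq (mul_pos hr (norm_pos_iff.2 hz)) (ζ * ang z)]
  congr 1
  conv_lhs => rw [← norm_mul_ang z]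
  push_cast
  ring

theorem contMDiffAt_ang {z : ℂ} (hz : z ≠ 0) : ContMDiffAt 𝓘(ℝ, ℂ) (𝓡 1) 1 ang z := by
  have h1 : ContDiffAt ℝ 1 (fun u : ℂ => (Complex.log (u * z⁻¹)).im) z := by
    have : ContDiffAt ℝ 1 Complex.log (z * z⁻¹) := by
      refine (Complex.contDiffAt_log ?_).restrict_scalars ℝ
      rw [mul_inv_cancel₀ hz]
      simp
    exact Complex.imCLM.contDiff.contDiffAt.comp _
      (this.comp z (contDiffAt_id.mul contDiffAt_const))
  have h2 : ContMDiffAt 𝓘(ℝ, ℂ) (𝓡 1) 1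
      (fun u : ℂ => ang z * Circle.exp (Complex.log (u * z⁻¹)).im) z :=
    (contMDiff_mul_left (I := 𝓡 1) (n := 1) (a := ang z)).contMDiffAt.comp z
      (contMDiff_circleExp.contMDiffAt.comp z h1.contMDiffAt)
  refine h2.congr_of_eventuallyEq ?_
  filter_upwards [isOpen_ne.mem_nhds hz] with u hu
  rw [Complex.log_im]
  have h3 := ang_mul (norm_pos_iff.2 hz) (ang z) (mul_ne_zero hu (inv_ne_zero hz))
  rw [norm_mul_ang, mul_comm u, mul_inv_cancel_left₀ hz, mul_comm z⁻¹] at h3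
  exact h3

noncomputable def tt (z : ℂ) : ℝ := Real.smoothTransition (4 * ‖z‖ ^ 2 - 2)

theorem tt_zero {z : ℂ} (h : ‖z‖ ^ 2 ≤ 1 / 2) : tt z = 0 :=
  Real.smoothTransition.zero_of_nonpos (by linarith)

theorem tt_one {z : ℂ} (h : 3 / 4 ≤ ‖z‖ ^ 2) : tt z = 1 :=
  Real.smoothTransition.one_of_one_le (by linarith)

theorem contDiff_tt : ContDiff ℝ 1 tt :=
  (Real.smoothTransition.contDiff (n := 1)).comp
    ((contDiff_const.mul (contDiff_norm_sq ℝ)).sub contDiff_const)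

variable (P : Par)

abbrev Y : Type := Sph ℂ × Sph P.V

noncomputable def GG (y : S3 × Y P) : P.V :=
  tt (zz y.1) • P.G (ang (zz y.1)) y.2.1 y.2.2 + tt (ww y.1) • P.G (ang (ww y.1)) y.2.1 y.2.2 +
    (1 - tt (zz y.1) - tt (ww y.1)) • (32 * st y.2.1 ^ 2) • P.bas 0

noncomputable def gM (y : S3 × Y P) : S3 × Y P :=
  open Classical in
  (RR P.ω y.1, if ht y.2.1 < -(3 / 4) then (E2 (GG P y 0), ist (P.hat (GG P y))) else (nor, sou))

theorem gM_z {y : S3 × Y P} (h : ‖ww y.1‖ ^ 2 ≤ 1 / 4) :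
    (gM P y).2 = P.fib (ang (zz y.1)) y.2.1 y.2.2 := by
  have h1 := zw y.1
  simp [gM, GG, Par.fib, tt_one (z := zz y.1) (by linarith), tt_zero (z := ww y.1) (by linarith)]

theorem gM_w {y : S3 × Y P} (h : ‖zz y.1‖ ^ 2 ≤ 1 / 4) :
    (gM P y).2 = P.fib (ang (ww y.1)) y.2.1 y.2.2 := by
  have h1 := zw y.1
  simp [gM, GG, Par.fib, tt_one (z := ww y.1) (by linarith), tt_zero (z := zz y.1) (by linarith)]

theorem gM_nor {y : S3 × Y P} (h : y.2 = (nor, sou)) : (gM P y).2 = (nor, sou) := by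
  have : ¬ ht y.2.1 < -(3 / 4) := by
    rw [h, show ht (nor : Sph ℂ) = 1 from rfl]
    norm_num
  simp [gM, this]

theorem G_far (ζ : Circle) (x : Sph ℂ) (w : Sph P.V) (hz : 1 / 4 ≤ ‖st x‖) :
    ∃ r : ℝ, 2 ≤ r ∧ P.G ζ x w = ((r : ℂ) * (st x / ‖st x‖) ^ 2) • P.bas 0 := by
  have h8 : P.G ζ x w = P.W ζ (st x) := by
    rw [Par.G]
    split_ifs with h9
    · rfl
    · have h7 := P.A_le ζ
      have h8 := P.A_nonneg ζ
      have h9 := sq_nonneg ‖st w‖
      exact P.F_eq_W _ _ _ (by nlinarith) (by nlinarith)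
  rw [h8]
  set z := st x
  have hA := P.A_nonneg ζ
  have hA1 := P.A_le_small ζ
  have hA2 := P.A_le_small (P.ω * ζ)
  have hΛ := P.cc_Λ_ge
  have hz' : 0 < ‖z‖ := by linarith only [hz]
  have hz0 : z ≠ 0 := norm_pos_iff.mp hz'
  have ha : 1 / 4 ≤ P.A ζ + ‖z‖ := by linarith only [hz, hA]
  have hG : 3 ≤ P.Gam ζ (P.A ζ + ‖z‖) := by
    unfold Par.Gam
    have h1 := RW.le_mx_right (Hm.nu_nonneg ζ)
      (RW.beta_pos (a := P.A ζ + ‖z‖) (by linarith only [hA, hz']))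
    have h2 := cc_beta_ge ha
    have h3 : 1 / 8 ≤ mx (nu ζ) (beta (P.A ζ + ‖z‖)) := by linarith only [h1, h2]
    calc (3 : ℝ) ≤ 1000 * (1 / 8) * (1 / 4) := by norm_num
      _ ≤ P.Λ * mx (nu ζ) (beta (P.A ζ + ‖z‖)) * (P.A ζ + ‖z‖) := by gcongr
  rw [P.cc_W_of_le hz0 (by linarith only [hz, hA1]), P.e_big (by linarith only [hG])
    (by linarith only [hA2, hG]) (Par.cc_unit_sq hz0)]
  refine ⟨_, ?_, rfl⟩
  rw [Par.cc_S_mul (by linarith only [hG]) (by linarith only [hA2, hG])]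
  linarith only [hA2, hG]

theorem GG_far (y : S3 × Y P) (hz : 1 / 4 ≤ ‖st y.2.1‖) :
    2 ≤ ‖GG P y 0‖ ∧ P.hat (GG P y) = 0 := by
  obtain ⟨r1, a1, b1⟩ := G_far P (ang (zz y.1)) y.2.1 y.2.2 hz
  obtain ⟨r2, a2, b2⟩ := G_far P (ang (ww y.1)) y.2.1 y.2.2 hz
  have hz0 : st y.2.1 ≠ 0 := norm_pos_iff.mp (by linarith)
  have hn : (‖st y.2.1‖ : ℂ) ≠ 0 := by exact_mod_cast norm_ne_zero_iff.2 hz0
  have h1 : 0 ≤ tt (zz y.1) := Real.smoothTransition.nonneg _
  have h2 : 0 ≤ tt (ww y.1) := Real.smoothTransition.nonneg _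
  have h3 : tt (zz y.1) + tt (ww y.1) ≤ 1 := by
    have h4 : tt (zz y.1) ≤ 1 := Real.smoothTransition.le_one _
    have h5 : tt (ww y.1) ≤ 1 := Real.smoothTransition.le_one _
    have h6 := zw y.1
    rcases le_total (‖zz y.1‖ ^ 2) (1 / 2) with h | h
    · linarith [tt_zero h]
    · linarith [tt_zero (z := ww y.1) (by linarith)]
  have h4 : GG P y = (((tt (zz y.1) * r1 + tt (ww y.1) * r2 + (1 - tt (zz y.1) - tt (ww y.1)) *
      (32 * ‖st y.2.1‖ ^ 2) : ℝ) : ℂ) * (st y.2.1 / ‖st y.2.1‖) ^ 2) • P.bas 0 := by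
    rw [GG, b1, b2, ← smul_assoc, ← smul_assoc, ← smul_assoc, ← add_smul, ← add_smul]
    congr 1
    simp only [Complex.real_smul]
    push_cast
    field_simp
  rw [h4]
  refine ⟨?_, P.cc_hat_smul_bas _⟩
  have h5 : 2 ≤ 32 * ‖st y.2.1‖ ^ 2 := by nlinarith
  rw [P.cc_smul_bas_apply, norm_mul, Complex.norm_real, Par.cc_unit_sq hz0, mul_one]
  refine le_trans ?_ (le_abs_self _)
  nlinarith [mul_le_mul_of_nonneg_left a1 h1, mul_le_mul_of_nonneg_left a2 h2,
    mul_le_mul_of_nonneg_left h5 (show 0 ≤ 1 - tt (zz y.1) - tt (ww y.1) by linarith)]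

noncomputable abbrev II (P : Par) := (𝓡 3).prod ((𝓡 2).prod (𝓡 (2 * P.p)))

theorem contMDiffAt_term {c : S3 → ℂ} (hc : ContMDiff (𝓡 3) 𝓘(ℝ, ℂ) 1 c) (y : S3 × Y P)
    (hx : y.2.1 ≠ nor) : ContMDiffAt (II P) 𝓘(ℝ, P.V) 1
      (fun y : S3 × Y P => tt (c y.1) • P.G (ang (c y.1)) y.2.1 y.2.2) y := by
  have h0 : ContMDiffAt (II P) 𝓘(ℝ, ℂ) 1 (fun y : S3 × Y P => c y.1) y :=
    hc.contMDiffAt.comp y contMDiffAt_fst
  by_cases hz : c y.1 = 0
  · refine (contMDiffAt_const (c := 0)).congr_of_eventuallyEq ?_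
    have h1 : ∀ᶠ y' in 𝓝 y, ‖c y'.1‖ ^ 2 < 1 / 2 :=
      (h0.continuousAt.norm.pow 2).eventually (gt_mem_nhds (by simp [hz]))
    filter_upwards [h1] with y' hy'
    rw [tt_zero hy'.le, zero_smul]
  · refine (contDiff_tt.contMDiff.contMDiffAt.comp y h0).smul ?_
    have h1 := P.contMDiffAt_G (P.F_contDiff_of P.WR_contDiff) P.WR_contDiff P.F_eq_W P.A_le
      (ang (c y.1), y.2) hx
    exact h1.comp y (((contMDiffAt_ang hz).comp y h0).prodMk contMDiffAt_snd)

theorem contMDiffAt_GG (y : S3 × Y P) (hx : y.2.1 ≠ nor) :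
    ContMDiffAt (II P) 𝓘(ℝ, P.V) 1 (GG P) y := by
  refine ((contMDiffAt_term P contMDiff_zz y hx).add (contMDiffAt_term P contMDiff_ww y hx)).add ?_
  have h1 : ∀ c : S3 → ℂ, ContMDiff (𝓡 3) 𝓘(ℝ, ℂ) 1 c →
      ContMDiffAt (II P) 𝓘(ℝ, ℝ) 1 (fun y : S3 × Y P => tt (c y.1)) y := fun c hc =>
    contDiff_tt.contMDiff.contMDiffAt.comp y (hc.contMDiffAt.comp y contMDiffAt_fst)
  have h2 : ContMDiffAt (II P) 𝓘(ℝ, ℂ) 1 (fun y' : S3 × Y P => st y'.2.1) y :=
    (contMDiffAt_st hx).comp y (contMDiffAt_fst.comp y contMDiffAt_snd)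
  have h3 : ContDiff ℝ 1 fun u : ℂ => (32 * u ^ 2) • P.bas 0 :=
    (contDiff_const.mul (contDiff_id.pow 2)).smul contDiff_const
  exact ((contMDiffAt_const.sub (h1 _ contMDiff_zz)).sub (h1 _ contMDiff_ww)).smul
    (h3.contMDiff.contMDiffAt.comp y h2)

theorem gM_contMDiff : ContMDiff (II P) (II P) 1 (gM P) := by
  classical
  intro y
  refine ((contMDiff_RR P.ω).contMDiffAt.comp y contMDiffAt_fst).prodMk ?_
  have hc : Continuous fun y' : S3 × Y P => ht y'.2.1 :=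
    continuous_ht.comp (continuous_fst.comp continuous_snd)
  have hne : ∀ x : Sph ℂ, ht x < -(3 / 4) → x ≠ nor := by
    rintro _ h rfl
    rw [show ht (nor : Sph ℂ) = 1 from rfl] at h
    norm_num at h
  by_cases hx : -(15 / 17) < ht y.2.1
  · refine (contMDiffAt_const (c := ((nor, sou) : Y P))).congr_of_eventuallyEq ?_
    filter_upwards [hc.continuousAt.eventually (lt_mem_nhds hx)] with y' hy'
    split_ifs with h3
    · have h6 : 1 / 4 ≤ ‖st y'.2.1‖ := by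
        refine le_of_sq_le_sq ?_ (norm_nonneg _)
        rw [norm_st_sq (hne _ h3), le_div_iff₀ (by linarith only [h3])]
        linarith only [hy']
      obtain ⟨h10, h11⟩ := GG_far P y' h6
      rw [h11, E2_of_two_le h10, ist_zero]
    · rfl
  · have hx' : ht y.2.1 < -(3 / 4) := by linarith [not_lt.1 hx]
    have hG := contMDiffAt_GG P y (hne _ hx')
    have h1 : ContMDiffAt (II P) (𝓡 2) 1 (fun y : S3 × Y P => E2 (GG P y 0)) y :=
      (contMDiff_E2 (m := 1)).contMDiffAt.comp y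
        ((P.contDiff_zeroCoord (n := 1)).contMDiff.contMDiffAt.comp y hG)
    have h2 : ContMDiffAt (II P) (𝓡 (2 * P.p)) 1
        (fun y : S3 × Y P => (ist (P.hat (GG P y)) : Sph P.V)) y :=
      (contMDiff_ist (V := P.V) (n := 2 * P.p) (m := 1)).contMDiffAt.comp y
        ((P.contDiff_hat (n := 1)).contMDiff.contMDiffAt.comp y hG)
    refine (h1.prodMk h2).congr_of_eventuallyEq ?_
    filter_upwards [hc.continuousAt.eventually (gt_mem_nhds hx')] with y' hy'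
    rw [if_pos hy']

noncomputable def gC : C(S3 × Y P, S3 × Y P) := ⟨gM P, (gM_contMDiff P).continuous⟩

def inc (ζ : Circle) : S3 :=
  ⟨WithLp.toLp 2 ((ζ : ℂ), (0 : ℂ)), by simp [Circle.norm_coe]⟩

def iC : C(Circle × Y P, S3 × Y P) :=
  ⟨fun y => (inc y.1, y.2), (Continuous.subtype_mk (by fun_prop) _).prodMk continuous_snd⟩

theorem gM_inc (y : Circle × Y P) : gM P (iC P y) = iC P (P.fM y) := by
  refine Prod.ext (Subtype.ext ?_) ?_
  · change ‖LL P.ω (inc y.1).1‖⁻¹ • LL P.ω (inc y.1).1 = (inc (P.ω * y.1)).1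
    have h : ‖LL P.ω (inc y.1).1‖ = 2 := by simp [LL, inc, Circle.norm_coe]
    rw [h]
    apply (WithLp.linearEquiv 2 ℝ (ℂ × ℂ)).injective
    refine Prod.ext ?_ ?_
    · change (2 : ℝ)⁻¹ • (2 * (P.ω : ℂ) * y.1) = (P.ω * y.1 : Circle)
      rw [Complex.real_smul]
      push_cast
      ring
    · change (2 : ℝ)⁻¹ • ((P.ω : ℂ) * 0) = 0
      simp
  · rw [gM_z P (by simp [iC, inc, ww])]
    have h := ang_eq one_pos y.1
    rw [Complex.ofReal_one, one_mul] at h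
    change P.fib (ang y.1) _ _ = _
    rw [h]
    rfl

theorem exists_eigen : ∃ x, x ≠ 0 ∧ homologyMap 2 (gC P) x = (2 : ℝ) • x := by
  obtain ⟨c, hc0, hD⟩ := _root_.N103X.Hlg.exists_class
  have hD' : Hm.hm 2 ⟨Dmap, continuous_Dmap⟩ c = (2 : ℝ) • c := hD
  have h1 : Hm.hm 2 (⟨P.fM, P.fM_continuous⟩ : C(_, _)) (Hm.hm 2 P.jmap c) =
      (2 : ℝ) • Hm.hm 2 P.jmap c := by
    rw [← Hm.hm_comp, Hm.hm_homotopic 2 (P.fM_homotopic' P.fM_continuous), Hm.hm_comp, hD',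
      map_smul]
  refine ⟨Hm.hm 2 (iC P) (Hm.hm 2 P.jmap c), fun h0 => hc0 ?_, ?_⟩
  · have := congrArg (Hm.hm 2 (⟨fun y => y.2.1, by fun_prop⟩ : C(S3 × Y P, Sph ℂ))) h0
    rw [← Hm.hm_comp, ← Hm.hm_comp, map_zero] at this
    exact (Hm.hm_id 2 c).symm.trans this
  · have h2 : (gC P).comp (iC P) = (iC P).comp ⟨P.fM, P.fM_continuous⟩ :=
      ContinuousMap.ext (gM_inc P)
    change Hm.hm 2 (gC P) _ = _
    rw [← Hm.hm_comp, h2, Hm.hm_comp, h1, map_smul]

end Vale.Agent.N103X.S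
end

section

/-!
# P103: separated sets of the map on `S³ × S² × S^(2p)` grow polynomially
-/

namespace Vale.Agent.N103X.S

open Filter Topology Vale.Agent.N103X

theorem semi_iter {A B : Type} {g : A → A} {f : B → B} {π : A → B} {Q : A → Prop}
    (h : ∀ x, Q x → π (g x) = f (π x)) (x : A) (j : ℕ) (hj : ∀ i < j, Q (g^[i] x)) :
    π (g^[j] x) = f^[j] (π x) := by
  induction j with
  | zero => rfl
  | succ j ih =>
    rw [Function.iterate_succ_apply', Function.iterate_succ_apply', h _ (hj j j.lt_succ_self),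
      ih fun i hi => hj i (hi.trans j.lt_succ_self)]

theorem near {a b : ℂ} (h : ‖a‖ ^ 2 + ‖b‖ ^ 2 = 1) : ‖b - ang b‖ ≤ ‖a‖ := by
  have h1 : b - ang b = ((‖b‖ - 1 : ℝ) : ℂ) * ang b := by
    push_cast
    rw [sub_mul, norm_mul_ang, one_mul]
  have ha := norm_nonneg a
  have hb := norm_nonneg b
  rw [h1, norm_mul, Circle.norm_coe, mul_one, Complex.norm_real, Real.norm_eq_abs, abs_le]
  constructor <;> nlinarith

theorem close {a b a' b' : ℂ} {δ η : ℝ} (h : ‖a‖ ^ 2 + ‖b‖ ^ 2 = 1) (h' : ‖a'‖ ^ 2 + ‖b'‖ ^ 2 = 1)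
    (hδ : 0 ≤ δ) (h1 : ‖a‖ ≤ δ * ‖b‖) (h2 : ‖a'‖ ≤ δ * ‖b'‖) (h3 : dist (ang b) (ang b') ≤ η) :
    ‖a - a'‖ + ‖b - b'‖ ≤ 4 * δ + η := by
  have k : ∀ {a b : ℂ}, ‖a‖ ^ 2 + ‖b‖ ^ 2 = 1 → ‖a‖ ≤ δ * ‖b‖ → ‖a‖ ≤ δ := fun {a b} h h1 =>
    h1.trans (mul_le_of_le_one_right hδ (by nlinarith [norm_nonneg a, norm_nonneg b]))
  have e1 := near h
  have e2 := near h'
  have e3 := norm_sub_le a a'
  have e4 : ‖b - b'‖ ≤ ‖b - ang b‖ + ‖(ang b : ℂ) - ang b'‖ + ‖b' - ang b'‖ := by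
    rw [norm_sub_rev b']
    simpa only [dist_eq_norm] using dist_triangle4 b (ang b) (ang b') b'
  have e5 : ‖(ang b : ℂ) - ang b'‖ ≤ η := by
    rw [← dist_eq_norm]
    exact h3
  linarith [k h h1, k h' h2]

theorem small {a b : ℂ} {δ : ℝ} (h : ‖a‖ ^ 2 + ‖b‖ ^ 2 = 1) (hδ : δ ≤ 1 / 2)
    (h1 : ‖a‖ ≤ δ * ‖b‖) : ‖a‖ ^ 2 ≤ 1 / 4 ∧ b ≠ 0 := by
  have ha := norm_nonneg a
  have hb := norm_nonneg b
  have h2 : ‖a‖ ≤ 1 / 2 * ‖b‖ := h1.trans (mul_le_mul_of_nonneg_right hδ hb)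
  have h3 : ‖a‖ ^ 2 ≤ 1 / 4 := by nlinarith
  refine ⟨h3, fun h0 => ?_⟩
  rw [h0, norm_zero] at h
  linarith

variable (P : Par)

theorem gM_iter_fst (x : S3 × Y P) (j : ℕ) : ((gM P)^[j] x).1 = (RR P.ω)^[j] x.1 :=
  semi_iter (Q := fun _ => True) (π := Prod.fst) (fun _ _ => rfl) x j fun _ _ => trivial

theorem ang_z (x : S3 × Y P) (j : ℕ) (h : zz ((gM P)^[j] x).1 ≠ 0) :
    ang (zz ((gM P)^[j] x).1) = P.ω ^ j * ang (zz x.1) := by
  obtain ⟨c, hc, h1, -⟩ := RR_iter P.ω x.1 j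
  rw [gM_iter_fst, h1] at h ⊢
  exact ang_mul (by positivity) _ (right_ne_zero_of_mul h)

theorem ang_w (x : S3 × Y P) (j : ℕ) (h : ww ((gM P)^[j] x).1 ≠ 0) :
    ang (ww ((gM P)^[j] x).1) = P.ω ^ j * ang (ww x.1) := by
  obtain ⟨c, hc, -, h1⟩ := RR_iter P.ω x.1 j
  rw [gM_iter_fst, h1] at h ⊢
  exact ang_mul hc _ (right_ne_zero_of_mul h)

theorem phase {δ : ℝ} (hδ : 0 < δ) {T : ℕ} (hT : 1 ≤ δ ^ 2 * 2 ^ T) (x : S3 × Y P) {i j : ℕ}
    (h : ¬ ‖zz ((gM P)^[i] x).1‖ ≤ δ * ‖ww ((gM P)^[i] x).1‖) (hj : i + T ≤ j) :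
    ‖ww ((gM P)^[j] x).1‖ ≤ δ * ‖zz ((gM P)^[j] x).1‖ := by
  obtain ⟨c, hc, h1, h2⟩ := RR_iter P.ω x.1 i
  obtain ⟨d, hd, h3, h4⟩ := RR_iter P.ω x.1 j
  rw [gM_iter_fst, h1, h2, not_le] at h
  rw [gM_iter_fst, h3, h4]
  simp only [norm_mul, Circle.norm_coe, mul_one, Complex.norm_real, Real.norm_eq_abs,
    abs_of_pos hc, abs_of_pos hd, abs_of_pos (show (0 : ℝ) < 2 ^ i by positivity),
    abs_of_pos (show (0 : ℝ) < 2 ^ j by positivity)] at h ⊢
  have h5 : δ * ‖ww x.1‖ ≤ 2 ^ i * ‖zz x.1‖ :=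
    le_of_mul_le_mul_left (by linarith) hc
  have h6 : (2 : ℝ) ^ i * 2 ^ T ≤ 2 ^ j := by
    rw [← pow_add]
    exact pow_le_pow_right₀ one_le_two hj
  have h7 : ‖ww x.1‖ ≤ δ * (2 ^ j * ‖zz x.1‖) := by
    calc ‖ww x.1‖ ≤ δ ^ 2 * 2 ^ T * ‖ww x.1‖ := le_mul_of_one_le_left (norm_nonneg _) hT
      _ = δ * 2 ^ T * (δ * ‖ww x.1‖) := by ring
      _ ≤ δ * 2 ^ T * (2 ^ i * ‖zz x.1‖) := by gcongr
      _ = δ * (2 ^ i * 2 ^ T * ‖zz x.1‖) := by ring
      _ ≤ _ := by gcongr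
  nlinarith [mul_le_mul_of_nonneg_left h7 hd.le]

theorem gM_poly : Poly (gM P) := by
  classical
  intro ε hε
  obtain ⟨T, U, hU, hT⟩ := P.fM_exceptional hε
  obtain ⟨δ, hδ, hδ1, hδ2⟩ : ∃ δ : ℝ, 0 < δ ∧ δ ≤ 1 / 2 ∧ δ ≤ ε / 8 :=
    ⟨min (1 / 2) (ε / 8), by positivity, min_le_left _ _, min_le_right _ _⟩
  obtain ⟨T0, hT0⟩ := pow_unbounded_of_one_lt (1 / δ ^ 2) (one_lt_two (α := ℝ))
  have hT1 : 1 ≤ δ ^ 2 * 2 ^ T0 := by
    rw [div_lt_iff₀ (by positivity)] at hT0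
    linarith
  obtain ⟨N, net, hnet⟩ := exists_net (S3 × Y P) hε
  obtain ⟨L, nc, hnc⟩ := exists_net Circle (half_pos hε)
  refine ⟨L * L * (N + 1) ^ (T + T0 + T), T + T0 + T + 2, fun n E hE => ?_⟩
  set g := gM P with hg
  let Q2 : S3 × Y P → Prop := fun x => ‖zz x.1‖ ≤ δ * ‖ww x.1‖
  let Q1 : S3 × Y P → Prop := fun x => ‖ww x.1‖ ≤ δ * ‖zz x.1‖
  have e1 : ∀ x, ∃ j, j = n ∨ ¬ Q2 (g^[j] x) := fun x => ⟨n, Or.inl rfl⟩
  have e2 : ∀ x, ∃ j, j = n ∨ (g^[j] x).2 = (nor, sou) := fun x => ⟨n, Or.inl rfl⟩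
  let a : S3 × Y P → Fin (n + 1) := fun x =>
    ⟨Nat.find (e1 x), Nat.lt_succ_of_le (Nat.find_min' _ (Or.inl rfl))⟩
  let q : S3 × Y P → Fin (n + 1) := fun x =>
    ⟨Nat.find (e2 x), Nat.lt_succ_of_le (Nat.find_min' _ (Or.inl rfl))⟩
  have ha2 : ∀ x j, j < (a x : ℕ) → Q2 (g^[j] x) := fun x j hj =>
    not_not.1 fun h => Nat.find_min (e1 x) hj (Or.inr h)
  have ha1 : ∀ x, ∀ j < n, (a x : ℕ) + T0 ≤ j → Q1 (g^[j] x) := fun x j hj h =>
    phase P hδ hT1 x ((Nat.find_spec (e1 x)).resolve_left (by change (a x : ℕ) ≠ n; omega)) h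
  have hq : ∀ x, ∀ j < n, ((g^[j] x).2 = (nor, sou) ↔ (q x : ℕ) ≤ j) := by
    refine fun x j hj => ⟨fun h => Nat.find_min' (e2 x) (Or.inr h), fun h => ?_⟩
    have h0 : (g^[q x] x).2 = (nor, sou) :=
      (Nat.find_spec (e2 x)).resolve_left (by change (q x : ℕ) ≠ n; omega)
    clear hj
    induction j, h using Nat.le_induction with
    | base => exact h0
    | succ j _ ih =>
      rw [Function.iterate_succ_apply']
      exact gM_nor P ih
  have s2 : ∀ x, Q2 x → (ang (ww (g x).1), (g x).2) = P.fM (ang (ww x.1), x.2) := by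
    intro x hx
    obtain ⟨h1, h2⟩ := small (zw x.1) hδ1 hx
    obtain ⟨c, hc, -, h3⟩ := RR_iter P.ω x.1 1
    refine Prod.ext ?_ (gM_w P h1)
    change ang (ww ((RR P.ω)^[1] x.1)) = _
    rw [h3, ang_mul hc _ h2, pow_one]
    rfl
  have s1 : ∀ x, Q1 x → (ang (zz (g x).1), (g x).2) = P.fM (ang (zz x.1), x.2) := by
    intro x hx
    obtain ⟨h1, h2⟩ := small ((add_comm _ _).trans (zw x.1)) hδ1 hx
    obtain ⟨c, hc, h3, -⟩ := RR_iter P.ω x.1 1
    refine Prod.ext ?_ (gM_z P h1)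
    change ang (zz ((RR P.ω)^[1] x.1)) = _
    rw [h3, ang_mul (by positivity) _ h2, pow_one]
    rfl
  have hB : ∀ x, ∃ B : Finset ℕ, B.card ≤ T + T0 + T ∧ ∀ j < n, j ∉ B →
      (j < (a x : ℕ) ∨ (a x : ℕ) + T0 ≤ j) ∧
        ((g^[j] x).2 ∈ U ∨ (g^[j] x).2 = (nor, sou)) := by
    intro x
    set k : ℕ := a x + T0 with hk
    obtain ⟨E1, c1, d1⟩ := hT (ang (ww x.1), x.2) n
    obtain ⟨E2, c2, d2⟩ := hT (ang (zz (g^[k] x).1), (g^[k] x).2) n
    refine ⟨E1 ∪ Finset.Ico (a x) k ∪ E2.image (· + k), ?_, fun j hj hjB => ?_⟩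
    · refine (Finset.card_union_le _ _).trans (add_le_add ((Finset.card_union_le _ _).trans
        (add_le_add c1 ?_)) (Finset.card_image_le.trans c2))
      simp [hk]
    simp only [Finset.mem_union, Finset.mem_Ico, Finset.mem_image, not_or, not_and, not_lt,
      not_exists] at hjB
    rcases lt_or_ge j (a x) with h | h
    · have h1 := semi_iter (π := fun x : S3 × Y P => (ang (ww x.1), x.2)) s2 x j
        fun i hi => ha2 x i (hi.trans h)
      have h2 := d1 j hj hjB.1.1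
      rw [← h1] at h2
      exact ⟨Or.inl h, h2⟩
    · obtain ⟨m, rfl⟩ := Nat.exists_eq_add_of_le' (hjB.1.2 h)
      have h1 := semi_iter (π := fun x : S3 × Y P => (ang (zz x.1), x.2)) s1 (g^[k] x) m
        fun i hi => by
          rw [← Function.iterate_add_apply]
          exact ha1 x _ (by omega) (by omega)
      have h2 := d2 m (by omega) fun hm => hjB.2 m hm rfl
      rw [← h1, ← Function.iterate_add_apply] at h2
      exact ⟨Or.inr (by omega), h2⟩
  choose B hB1 hB2 using hB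
  have hrot : ∀ (j : ℕ) (u v : Circle), nc u = nc v → dist (P.ω ^ j * u) (P.ω ^ j * v) ≤ ε / 2 :=
    fun j u v h => ((isometry_rot _).dist_eq u v).trans_le (hnc u v h)
  have main := code_bound hε net hnet
    (fun x => (nc (ang (zz x.1)), nc (ang (ww x.1)), a x, q x)) B hB1 (f := g) (n := n) (by
      intro x y hxy j hj hx hy
      simp only [Prod.mk.injEq] at hxy
      obtain ⟨k1, k2, k3, k4⟩ := hxy
      obtain ⟨x1, x2⟩ := hB2 x j hj hx
      obtain ⟨-, y2⟩ := hB2 y j hj hy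
      rw [Prod.dist_eq]
      refine max_le ((dist_S3 _ _).trans ?_) ?_
      · rcases x1 with h | h
        · have u := ha2 x j h
          have v := ha2 y j (k3 ▸ h)
          refine (close (η := ε / 2) (zw _) (zw _) hδ.le u v ?_).trans (by linarith)
          rw [ang_w P x j (small (zw _) hδ1 u).2, ang_w P y j (small (zw _) hδ1 v).2]
          exact hrot j _ _ k2
        · have u := ha1 x j hj h
          have v := ha1 y j hj (k3 ▸ h)
          have zw' : ∀ s, ‖ww s‖ ^ 2 + ‖zz s‖ ^ 2 = 1 := fun s => (add_comm _ _).trans (zw s)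
          rw [add_comm]
          refine (close (η := ε / 2) (zw' _) (zw' _) hδ.le u v ?_).trans (by linarith)
          rw [ang_z P x j (small (zw' _) hδ1 u).2, ang_z P y j (small (zw' _) hδ1 v).2]
          exact hrot j _ _ k1
      · by_cases h : (q x : ℕ) ≤ j
        · rw [(hq x j hj).2 h, (hq y j hj).2 (k4 ▸ h), dist_self]
          exact hε.le
        · exact hU _ (x2.resolve_right fun e => h ((hq x j hj).1 e)) _
            (y2.resolve_right fun e => h (k4 ▸ (hq y j hj).1 e))) hE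
  refine main.trans ?_
  simp only [Fintype.card_prod, Fintype.card_fin]
  have h1 : n * N + 1 ≤ (N + 1) * (n + 1) := by nlinarith
  calc L * (L * ((n + 1) * (n + 1))) * (n * N + 1) ^ (T + T0 + T)
      ≤ L * (L * ((n + 1) * (n + 1))) * ((N + 1) * (n + 1)) ^ (T + T0 + T) := by gcongr
    _ = _ := by rw [mul_pow]; ring

end Vale.Agent.N103X.S
end

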