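import Vale.Agent.N103X.Defs
import Vale.Agent.N103X.C3
import Vale.Agent.P103F2.Fin

/-!
# P103: entropy and spectral radius, general facts
-/

namespace Vale.Agent.N103X

open Filter Topology Set CategoryTheory S
open scoped Manifold ContDiff TensorProduct ENNReal

section Entropy

variable {M M' : Type} [MetricSpace M] [MetricSpace M']

theorem growth_tendsto (f : M → M) :
    Tendsto (Def.growth f) (𝓝[>] 0) (𝓝 (Def.htop f)) := by
  have h : Antitone (Def.growth f) := by
    intro ε ε' h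
    refine limsup_le_limsup (Eventually.of_forall fun n => ?_)
    refine EReal.div_le_div_right_of_nonneg (by exact_mod_cast Nat.zero_le n) ?_
    refine ENNReal.log_monotone (ENat.toENNReal_mono ?_)
    refine iSup₂_le fun S hS => le_iSup₂_of_le S (hS.mono' fun x y ⟨j, a, b⟩ => ?_) le_rfl
    exact ⟨j, a, h.trans_lt b⟩
  exact tendsto_nhds_limUnder ⟨_, AntitoneOn.tendsto_nhdsGT (h.antitoneOn _) (OrderTop.bddAbove _)⟩

theorem sep_eq (f : M → M) (n : ℕ) {ε : ℝ} (hε : 0 < ε) : Def.sep f n ε = sepCard f n ε := by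
  have key : ∀ x y, (∃ j < n, ε < dist (f^[j] x) (f^[j] y)) ↔ ε < dn f n x y := fun x y => by
    rw [← not_iff_not, not_lt, dn_le hε.le]
    simp
  refine le_antisymm (iSup₂_le fun S hS => ?_) (iSup₂_le fun E hE => ?_)
  · refine ENat.forall_natCast_le_iff_le.1 fun k hk => ?_
    obtain ⟨T, h1, h2⟩ := exists_subset_encard_eq hk
    obtain ⟨F, rfl⟩ := (finite_of_encard_eq_coe h2).exists_finset_coe
    rw [← h2, encard_coe_eq_coe_finsetCard]
    exact le_iSup₂_of_le F (fun x hx y hy hxy => (key x y).1 (hS (h1 hx) (h1 hy) hxy)) le_rfl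
  · exact le_iSup₂_of_le (E : Set M) (fun x hx y hy hxy => (key x y).2 (hE x hx y hy hxy))
      (by rw [Set.encard_coe_eq_coe_finsetCard])

theorem htop_zero [Nonempty M] {f : M → M} (h : Poly f) : Def.htop f = 0 := by
  refine tendsto_nhds_unique (growth_tendsto f) ((isTopEntropy_zero_of_poly f h).congr' ?_)
  filter_upwards [self_mem_nhdsWithin] with ε hε
  simp only [Def.growth, sep_eq f _ hε]

theorem poly_swap [CompactSpace M] [CompactSpace M'] {a : M → M'} {b : M' → M}
    (h : Poly (b ∘ a)) (ha : Continuous a) : Poly (a ∘ b) := by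
  classical
  intro ε hε
  obtain ⟨δ, hδ, hu⟩ := Metric.uniformContinuous_iff.1
    (CompactSpace.uniformContinuous_of_continuous ha) ε hε
  obtain ⟨C, D, hC⟩ := h (δ / 2) (half_pos hδ)
  obtain ⟨N, net, hnet⟩ := exists_net M' hε
  have hit : ∀ j x, (a ∘ b)^[j + 1] x = a ((b ∘ a)^[j] (b x)) := by
    intro j x
    induction j with
    | zero => rfl
    | succ j ih => rw [Function.iterate_succ_apply', ih, Function.iterate_succ_apply']; rfl
  refine ⟨N * C, D, fun n E hE => ?_⟩
  have key : ∀ x ∈ E, ∀ y ∈ E, net x = net y → dn (b ∘ a) n (b x) (b y) ≤ δ / 2 → x = y := by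
    intro x hx y hy h1 h2
    by_contra hne
    refine (hE x hx y hy hne).not_ge ((dn_le hε.le).2 fun j hj => ?_)
    rcases j with _ | j
    · exact hnet x y h1
    · rw [hit, hit]
      exact (hu (((dn_le (half_pos hδ).le).1 h2 _ (by omega)).trans_lt (half_lt_self hδ))).le
  have h2 : ∀ c ∈ (Finset.univ : Finset (Fin N)),
      (E.filter fun x => net x = c).card ≤ C * (n + 1) ^ D := by
    intro c _
    have hinj : Set.InjOn b (E.filter fun x => net x = c) := by
      intro x hx y hy hxy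
      simp only [Finset.coe_filter, Set.mem_ofPred_eq] at hx hy
      refine key x hx.1 y hy.1 (hx.2.trans hy.2.symm) ((dn_le (half_pos hδ).le).2 fun j _ => ?_)
      rw [hxy, dist_self]
      exact (half_pos hδ).le
    rw [← Finset.card_image_of_injOn hinj]
    refine hC n _ fun u hu v hv huv => ?_
    obtain ⟨x, hx, rfl⟩ := Finset.mem_image.1 hu
    obtain ⟨y, hy, rfl⟩ := Finset.mem_image.1 hv
    rw [Finset.mem_filter] at hx hy
    exact not_le.1 fun hle => huv (by rw [key x hx.1 y hy.1 (hx.2.trans hy.2.symm) hle])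
  have h3 := Finset.card_le_mul_card_image_of_maps_to (f := net) (s := E) (t := Finset.univ)
    (fun _ _ => Finset.mem_univ _) _ h2
  rw [Finset.card_univ, Fintype.card_fin] at h3
  refine h3.trans (le_of_eq ?_)
  ring

end Entropy

section Rho

variable {m : ℕ} {M : Type} [TopologicalSpace M]

theorem eigen {f : C(M, M)} (k : Fin (m + 1)) {x} (hx : x ≠ 0) {l : ℝ}
    (h : Hm.hm k f x = l • x) : Module.End.HasEigenvalue ((Def.fstar m f).baseChange ℂ) l := by
  let y : Def.Hstar m M := DirectSum.lof ℝ _ (fun k : Fin (m + 1) => (Def.H k).obj (TopCat.of M)) k x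
  refine Module.End.hasEigenvalue_of_hasEigenvector (x := (1 : ℂ) ⊗ₜ[ℝ] y) ⟨?_, ?_⟩
  · rw [Module.End.mem_eigenspace_iff, LinearMap.baseChange_tmul, Def.fstar, DirectSum.lmap_lof, h,
      map_smul, TensorProduct.tmul_smul]
    rfl
  · rw [Ne, Module.FaithfullyFlat.one_tmul_eq_zero_iff]
    exact fun h0 => hx (DirectSum.of_injective k (h0.trans (map_zero _).symm))

theorem le_rho {f : C(M, M)} {l : ℂ}
    (h : Module.End.HasEigenvalue ((Def.fstar m f).baseChange ℂ) l) :
    ‖l‖ₑ ≤ Def.rho (Def.fstar m f) :=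
  le_iSup₂_of_le l h.mem_spectrum le_rfl

theorem exists_fixed [Nonempty M] [FiniteDimensional ℝ ((Def.H 0).obj (TopCat.of M))]
    (f : C(M, M)) : ∃ x ≠ 0, Hm.hm 0 f x = (1 : ℝ) • x := by
  obtain ⟨p⟩ := ‹Nonempty M›
  let c : TopCat.of M ⟶ TopCat.of Unit := TopCat.ofHom (.const _ ())
  let s : TopCat.of Unit ⟶ TopCat.of M := TopCat.ofHom (.const _ p)
  by_contra h
  let T : Module.End ℝ ((Def.H 0).obj (TopCat.of M)) :=
    ((Def.H 0).map (TopCat.ofHom f)).hom - LinearMap.id
  have h1 : Function.Injective T :=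
    (injective_iff_map_eq_zero _).2 fun x hx => by_contra fun h0 =>
      h ⟨x, h0, (sub_eq_zero.1 hx).trans (one_smul _ _).symm⟩
  have h2 : ∀ y, ((Def.H 0).map c).hom y = 0 := fun y => by
    obtain ⟨x, rfl⟩ := LinearMap.surjective_of_injective h1 y
    rw [LinearMap.sub_apply, map_sub, ← ModuleCat.comp_apply, ← Functor.map_comp]
    exact sub_self _
  let e := (asIso (TopCat.singularHomology₀ε (TopCat.of Unit) (ModuleCat.of ℝ ℝ))).toLinearEquiv
  have h3 := h2 (((Def.H 0).map s).hom (e.symm (1 : ℝ)))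
  rw [← ModuleCat.comp_apply, ← Functor.map_comp, show s ≫ c = 𝟙 _ from rfl,
    CategoryTheory.Functor.map_id] at h3
  exact one_ne_zero (e.symm.map_eq_zero_iff.1 h3)

theorem rechart {E G : Type} [NormedAddCommGroup E] [NormedSpace ℝ E] [TopologicalSpace G]
    (I : ModelWithCorners ℝ E G) [I.Boundaryless] [ChartedSpace G M] [IsManifold I ∞ M] :
    ∃ _ : ChartedSpace E M, IsManifold 𝓘(ℝ, E) ∞ M ∧
      ∀ f : M → M, ContMDiff I I 1 f → ContMDiff 𝓘(ℝ, E) 𝓘(ℝ, E) 1 f := by
  let φ := I.toHomeomorph.toOpenPartialHomeomorph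
  let _ : ChartedSpace E M :=
    { atlas := (fun e => e.trans φ) '' atlas G M
      chartAt := fun x => (chartAt G x).trans φ
      mem_chart_source := fun x => ⟨mem_chart_source G x, trivial⟩
      chart_mem_atlas := fun x => ⟨_, chart_mem_atlas G x, rfl⟩ }
  refine ⟨_, isManifold_of_contDiffOn _ _ _ ?_, fun f hf x => ?_⟩
  · rintro _ _ ⟨e, he, rfl⟩ ⟨e', he', rfl⟩
    refine ((contDiffGroupoid ∞ I).compatible he he').1.mono fun y hy => ?_
    exact ⟨⟨hy.1.1.2, hy.1.2.1⟩, I.range_eq_univ ▸ mem_univ _⟩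
  · obtain ⟨h1, h2⟩ := contMDiffAt_iff.1 (hf x)
    refine contMDiffAt_iff.2 ⟨h1, ?_⟩
    rw [I.range_eq_univ] at h2
    exact h2.mono (subset_univ _)

theorem well_defined {E G : Type} [NormedAddCommGroup E] [NormedSpace ℝ E] [TopologicalSpace G]
    (I : ModelWithCorners ℝ E G) [I.Boundaryless] [ChartedSpace G M] [IsManifold I ∞ M]
    [T2Space M] [CompactSpace M] [Nonempty M] (f : C(M, M)) :
    Def.Attained (Def.fstar m f) := by
  obtain ⟨_, -⟩ := rechart (M := M) I
  have h4 : ∀ k, FiniteDimensional ℝ ((Def.H k).obj (TopCat.of M)) :=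
    fun k => P103F2.finite_homology (X := M) (E := E) k
  have h5 : FiniteDimensional ℝ (Def.Hstar m M) := inferInstance
  obtain ⟨x, h6, h7⟩ := exists_fixed f
  obtain ⟨l, h8, h9⟩ := Set.exists_max_image
    {l | Module.End.HasEigenvalue ((Def.fstar m f).baseChange ℂ) l} (‖·‖ₑ)
    (Module.End.finite_hasEigenvalue _) ⟨_, eigen 0 h6 h7⟩
  refine ⟨h5, ⟨l, h8, le_antisymm (le_rho h8) (iSup₂_le fun k hk => ?_)⟩, ?_⟩
  · exact h9 k (Module.End.hasEigenvalue_iff_mem_spectrum.2 hk)
  · rintro _ ⟨k, hk, rfl⟩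
    exact le_rho hk

end Rho

section Good

variable {E G E' G' : Type} [NormedAddCommGroup E] [NormedSpace ℝ E] [TopologicalSpace G]
  [NormedAddCommGroup E'] [NormedSpace ℝ E'] [TopologicalSpace G']
  (I : ModelWithCorners ℝ E G) {I' : ModelWithCorners ℝ E' G'}
  {M M' : Type} [MetricSpace M] [ChartedSpace G M] [MetricSpace M'] [ChartedSpace G' M']

def Good (f : C(M, M)) : Prop :=
  ContMDiff I I 1 f ∧ Poly f ∧ ∃ x, x ≠ 0 ∧ Hm.hm 2 f x = (2 : ℝ) • x

variable {I}

theorem Good.swap [CompactSpace M] [CompactSpace M'] {f : C(M, M)} (h : Good I f) {i : M → M'}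
    {r : M' → M} (hi : ∀ y, ContMDiffAt I I' 1 i (f y)) (hr : ContMDiff I' I 1 r)
    (hri : ∀ y, r (i (f y)) = f y) : ∃ g : C(M', M'), Good I' g := by
  obtain ⟨h1, h2, x, h3, h4⟩ := h
  have ha : ContMDiff I I' 1 (i ∘ f) := fun y => (hi y).comp y (h1 y)
  let a : C(M, M') := ⟨i ∘ f, ha.continuous⟩
  let b : C(M', M) := ⟨r, hr.continuous⟩
  have hba : b.comp a = f := ContinuousMap.ext hri
  have h5 : Hm.hm 2 b (Hm.hm 2 a x) = (2 : ℝ) • x := by rw [← Hm.hm_comp, hba, h4]
  refine ⟨a.comp b, ha.comp hr, poly_swap (a := a) (b := b) ?_ a.continuous, Hm.hm 2 a x,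
    fun h0 => h3 ?_, ?_⟩
  · rwa [← ContinuousMap.coe_comp, hba]
  · rw [h0, map_zero] at h5
    exact (smul_eq_zero.1 h5.symm).resolve_left two_ne_zero
  · rw [Hm.hm_comp, h5, map_smul]

theorem Good.fails [Nonempty M] {f : C(M, M)} (h : Good I f) {m : ℕ} (hm : 2 ≤ m) :
    Def.Fails I m M := by
  obtain ⟨h1, h2, x, h3, h4⟩ := h
  intro R
  refine ⟨H308.powC f (R + 1), H308.contMDiff_iter h1 _, htop_zero (h2.iter R.succ_pos),
    le_trans ?_ (le_rho (eigen ⟨2, by omega⟩ h3 (H308.homologyMap_powC f 2 x h4 (R + 1))))⟩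
  rw [← ofReal_norm_eq_enorm, Complex.norm_real, Real.norm_of_nonneg (by positivity),
    ← ENNReal.ofReal_natCast]
  refine ENNReal.ofReal_le_ofReal ?_
  exact_mod_cast (Nat.lt_two_pow_self.trans (Nat.pow_lt_pow_succ one_lt_two)).le

end Good

end Vale.Agent.N103X
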