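import Mathlib

/-!
# P103: topological entropy, the action on homology and its spectral radius
-/

namespace Vale.Agent.N103X.Def

open Filter Topology AlgebraicTopology
open scoped DirectSum Manifold ContDiff ENNReal

/-- `s_f(n, ε)`: the largest cardinality of a set whose distinct points satisfy
`max_{j < n} d(f^j x, f^j y) > ε`. -/
noncomputable def sep {M : Type} [MetricSpace M] (f : M → M) (n : ℕ) (ε : ℝ) : ℕ∞ :=
  ⨆ (S : Set M) (_ : S.Pairwise fun x y => ∃ j < n, ε < dist (f^[j] x) (f^[j] y)), S.encard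

/-- `limsup_n (1 / n) log s_f(n, ε)`. -/
noncomputable def growth {M : Type} [MetricSpace M] (f : M → M) (ε : ℝ) : EReal :=
  limsup (fun n : ℕ => ENNReal.log (sep f n ε) / n) atTop

/-- The topological entropy: the limit of `growth f ε` as `ε` decreases to `0`. -/
noncomputable def htop {M : Type} [MetricSpace M] (f : M → M) : EReal :=
  limUnder (𝓝[>] 0) (growth f)

/-- Singular homology `H_k(-; ℝ)`. -/
noncomputable abbrev H (k : ℕ) :=
  (singularHomologyFunctor (ModuleCat.{0} ℝ) k).obj (ModuleCat.of ℝ ℝ)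

/-- `H_*(M; ℝ)`, the direct sum of the `H_k(M; ℝ)`, `0 ≤ k ≤ m`. -/
abbrev Hstar (m : ℕ) (M : Type) [TopologicalSpace M] : Type :=
  ⨁ k : Fin (m + 1), (H k).obj (TopCat.of M)

/-- The map `f_*` on `H_*(M; ℝ)`. -/
noncomputable def fstar (m : ℕ) {M : Type} [TopologicalSpace M] (f : C(M, M)) :
    Module.End ℝ (Hstar m M) :=
  DirectSum.lmap fun k => ((H k).map (TopCat.ofHom f)).hom

section

variable {V : Type} [AddCommGroup V] [Module ℝ V] (T : Module.End ℝ V)

/-- The spectral radius of a real linear map: that of its complexification. -/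
noncomputable def rho : ℝ≥0∞ := spectralRadius ℂ (T.baseChange ℂ)

/-- `V` has finite dimension and `rho T` is the largest modulus of a complex eigenvalue of `T`. -/
def Attained : Prop := FiniteDimensional ℝ V ∧
  IsGreatest ((‖·‖ₑ) '' {l | Module.End.HasEigenvalue (T.baseChange ℂ) l}) (rho T)

end

/-- Euclidean space `ℝ^m`. -/
abbrev Eu (m : ℕ) : Type := EuclideanSpace ℝ (Fin m)

/-- The unit sphere `S^n`. -/
abbrev Sp (n : ℕ) : Type := Metric.sphere (0 : Eu (n + 1)) 1

/-- `M` is a nonempty compact smooth manifold without boundary, of dimension `m`. -/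
def Closed (m : ℕ) (M : Type) [MetricSpace M] [ChartedSpace (Eu m) M] : Prop :=
  IsManifold (𝓡 m) ∞ M ∧ CompactSpace M ∧ Nonempty M

/-- `M`, of dimension `m`, carries `C^1` maps of entropy `0` and arbitrarily large `ρ(f_*)`. -/
def Fails {E G : Type} [NormedAddCommGroup E] [NormedSpace ℝ E] [TopologicalSpace G]
    (I : ModelWithCorners ℝ E G) (m : ℕ) (M : Type) [MetricSpace M] [ChartedSpace G M] : Prop :=
  ∀ R : ℕ, ∃ f : C(M, M), ContMDiff I I 1 f ∧ htop f = 0 ∧ R ≤ rho (fstar m f)

/-- `Fails` for the product of three manifolds with charts to `E`, `F`, `G`. -/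
def ProdFails (E F G : Type) [NormedAddCommGroup E] [NormedSpace ℝ E] [NormedAddCommGroup F]
    [NormedSpace ℝ F] [NormedAddCommGroup G] [NormedSpace ℝ G] (m : ℕ) (X Y Z : Type)
    [MetricSpace X] [ChartedSpace E X] [MetricSpace Y] [ChartedSpace F Y] [MetricSpace Z]
    [ChartedSpace G Z] : Prop :=
  Fails (𝓘(ℝ, E).prod (𝓘(ℝ, F).prod 𝓘(ℝ, G))) m (X × Y × Z)

/-- `Fails` for the product manifold `S^a × S^2 × N`, where `N` has dimension `k`. -/
def SpheresFail (a k : ℕ) (N : Type) [MetricSpace N] [ChartedSpace (Eu k) N] : Prop :=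
  ProdFails (Eu a) (Eu 2) (Eu k) (a + 2 + k) (Sp a) (Sp 2) N

end Vale.Agent.N103X.Def
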