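import Vale.Agent.N103X.Br
import Vale.Agent.P216.H347.SCS

/-!
# P103: counterexamples on `S¹ × S² × N` and `S³ × S² × N`, `dim N ≥ 8`
-/

namespace Vale.Agent.N103X

open Filter Topology Set S Module
open scoped Manifold ContDiff

theorem fit {V E G N : Type} [NormedAddCommGroup V] [NormedSpace ℝ V] [FiniteDimensional ℝ V]
    [NormedAddCommGroup E] [NormedSpace ℝ E] [FiniteDimensional ℝ E] [TopologicalSpace G]
    (I : ModelWithCorners ℝ E G) [I.Boundaryless] [TopologicalSpace N] [ChartedSpace G N]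
    [IsManifold I ∞ N] [T2Space N] [Nonempty N] (W : Submodule ℝ V)
    (hW : finrank ℝ W ≤ finrank ℝ E) (R : ℝ) : ∃ (j : V → N) (r : N → V),
      (∀ v, ‖v‖ ≤ R → ContMDiffAt 𝓘(ℝ, V) I 1 j v) ∧ ContMDiff I 𝓘(ℝ, V) 1 r ∧
      ∀ v ∈ W, ‖v‖ ≤ R → r (j v) = v := by
  obtain ⟨ι, hι⟩ := finrank_le_iff_exists_linearMap.1 hW
  obtain ⟨κ, hκ⟩ := ι.exists_leftInverse_of_injective (LinearMap.ker_eq_bot.2 hι)
  obtain ⟨π, hπ⟩ := W.subtype.exists_leftInverse_of_injective W.ker_subtype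
  let A : V →L[ℝ] E := (ι.comp π).toContinuousLinearMap
  let B : E →L[ℝ] V := (W.subtype.comp κ).toContinuousLinearMap
  have hBA : ∀ v ∈ W, B (A v) = v := fun v hv => by
    have h1 : π v = ⟨v, hv⟩ := LinearMap.congr_fun hπ ⟨v, hv⟩
    have h2 : κ (ι ⟨v, hv⟩) = ⟨v, hv⟩ := LinearMap.congr_fun hκ ⟨v, hv⟩
    change (κ (ι (π v)) : V) = v
    rw [h1, h2]
  obtain ⟨x⟩ := ‹Nonempty N›
  obtain ⟨β⟩ : Nonempty (SmoothBumpFunction I x) := inferInstance
  set e := extChartAt I x with he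
  have h1 : ∀ᶠ y in 𝓝 (e x), y ∈ e.target ∧ β (e.symm y) = 1 := by
    refine Eventually.and (extChartAt_target_mem_nhds x)
      ((continuousAt_extChartAt_symm x).eventually (p := fun y => β y = 1) ?_)
    rw [extChartAt_to_inv]
    exact β.eventuallyEq_one
  obtain ⟨ρ, hρ, h2⟩ := Metric.eventually_nhds_iff.1 h1
  obtain ⟨c, hc, h3⟩ : ∃ c : ℝ, 0 < c ∧ c * (‖A‖ * |R|) < ρ :=
    exists_pos_mul_lt hρ _ |>.imp fun c h => ⟨h.1, by rw [mul_comm]; exact h.2⟩
  have h4 : ∀ v, ‖v‖ ≤ R → e x + c • A v ∈ e.target ∧ β (e.symm (e x + c • A v)) = 1 := by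
    intro v hv
    refine h2 ?_
    rw [dist_self_add_left, norm_smul, Real.norm_of_nonneg hc.le]
    refine lt_of_le_of_lt ?_ h3
    gcongr
    exact (A.le_opNorm v).trans (by gcongr; exact hv.trans (le_abs_self R))
  refine ⟨fun v => e.symm (e x + c • A v), fun y => β y • c⁻¹ • B (e y - e x), fun v hv => ?_,
    (β.contMDiff_smul ?_).of_le (by simp), fun v hv hR => ?_⟩
  · have h5 : ContMDiffAt 𝓘(ℝ, E) I 1 e.symm (e x + c • A v) :=
      (contMDiffOn_extChartAt_symm x).contMDiffAt (extChartAt_target_mem_nhds' (h4 v hv).1)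
    have h6 : ContDiff ℝ 1 fun v => e x + c • A v := by fun_prop
    exact h5.comp v h6.contMDiff.contMDiffAt
  · have h6 : ContDiff ℝ ∞ fun y => c⁻¹ • B (y - e x) := by fun_prop
    exact h6.contMDiff.comp_contMDiffOn contMDiffOn_extChartAt
  · simp only
    rw [(h4 v hR).2, e.right_inv (h4 v hR).1, add_sub_cancel_left, map_smul, hBA v hv, one_smul,
      smul_smul, inv_mul_cancel₀ hc.ne', one_smul]

theorem exists_sph (E : Type) [NormedAddCommGroup E] [InnerProductSpace ℝ E] (n : ℕ)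
    [h : Fact (finrank ℝ E = n + 1)] :
    ∃ (a : Metric.sphere (0 : E) 1 → Def.Sp n) (b : Def.Sp n → Metric.sphere (0 : E) 1),
      ContMDiff (𝓡 n) (𝓡 n) 1 a ∧ ContMDiff (𝓡 n) (𝓡 n) 1 b ∧ ∀ x, b (a x) = x := by
  have : FiniteDimensional ℝ E := FiniteDimensional.of_finrank_pos (by rw [h.out]; omega)
  have := Fact.mk (@finrank_euclideanSpace_fin ℝ _ (n + 1))
  let L := ((stdOrthonormalBasis ℝ E).reindex (finCongr h.out)).repr
  refine ⟨fun x => ⟨L x, by simp⟩, fun x => ⟨L.symm x, by simp⟩, ?_, ?_, fun x => by simp⟩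
  · exact (L.contDiff.contMDiff.comp contMDiff_coe_sphere).codRestrict_sphere _
  · exact (L.symm.contDiff.contMDiff.comp contMDiff_coe_sphere).codRestrict_sphere _

section Sph

variable {V : Type} [NormedAddCommGroup V] [InnerProductSpace ℝ V]

theorem ht_ist (v : V) : 1 - ht (ist v) = 2 / (1 + ‖v‖ ^ 2) := by
  have h : (1 + ‖v‖ ^ 2) ≠ 0 := by positivity
  rw [ist, ht_mk]
  field_simp
  ring

theorem ist_ne (v : V) : ist v ≠ nor := fun h => by
  have h1 := ht_ist v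
  rw [h, show ht (nor : Sph V) = 1 from rfl, sub_self] at h1
  exact absurd h1 (ne_of_lt (by positivity))

theorem st_ist (v : V) : st (ist v) = v := by
  rw [st, ht_ist, ist, hp_mk, smul_smul, inv_mul_cancel₀ (by positivity), one_smul]

end Sph

theorem move {E : Type} [NormedAddCommGroup E] [InnerProductSpace ℝ E] {a : ℕ}
    [Fact (finrank ℝ E = a + 1)] {P : Par} (hP : P.p = 5)
    {f : C(Metric.sphere (0 : E) 1 × Y P, Metric.sphere (0 : E) 1 × Y P)}
    (h : Good ((𝓡 a).prod ((𝓡 2).prod (𝓡 (2 * P.p)))) f)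
    (hf : ∀ y, ∃ v, (f y).2.2 = ist (P.hat v)) {k : ℕ} (hk : 8 ≤ k) (N : Type) [MetricSpace N]
    [ChartedSpace (EuclideanSpace ℝ (Fin k)) N] [IsManifold (𝓡 k) ∞ N] [CompactSpace N]
    [Nonempty N] : ∃ g : C(Def.Sp a × Def.Sp 2 × N, Def.Sp a × Def.Sp 2 × N),
      Good ((𝓡 a).prod ((𝓡 2).prod (𝓡 k))) g := by
  have : FiniteDimensional ℝ E :=
    FiniteDimensional.of_finrank_pos (by rw [(Fact.out : finrank ℝ E = a + 1)]; omega)
  obtain ⟨a1, b1, c1, d1, e1⟩ := exists_sph E a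
  obtain ⟨a2, b2, c2, d2, e2⟩ := exists_sph (WithLp 2 (ℂ × ℝ)) 2
  have hne : ∀ y, (f y).2.2 ≠ nor := fun y => by
    obtain ⟨v, hv⟩ := hf y
    rw [hv]
    exact ist_ne _
  have hc : Continuous fun y => st (f y).2.2 := continuous_iff_continuousAt.2 fun y =>
    ContinuousAt.comp (g := st) (contMDiffAt_st (n := 2 * P.p) (hne y)).continuousAt
      (by fun_prop)
  obtain ⟨R, hR⟩ := isCompact_univ.exists_bound_of_continuousOn hc.continuousOn
  let φ : P.V →ₗ[ℝ] ℂ := (EuclideanSpace.projₗ (𝕜 := ℂ) (0 : ZMod P.p)).restrictScalars ℝ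
  have hφ : LinearMap.range φ = ⊤ := LinearMap.range_eq_top.2 fun c =>
    ⟨c • P.bas 0, P.cc_smul_bas_apply c⟩
  have hW : finrank ℝ (LinearMap.ker φ) ≤ finrank ℝ (EuclideanSpace ℝ (Fin k)) := by
    have h1 := φ.finrank_range_add_finrank_ker
    have h2 := P.factSm.out
    rw [(WithLp.linearEquiv 2 ℝ (P.V × ℝ)).finrank_eq, finrank_prod, finrank_self] at h2
    rw [hφ, finrank_top, Complex.finrank_real_complex] at h1
    rw [finrank_euclideanSpace_fin]
    omega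
  obtain ⟨j, r, h1, h2, h3⟩ := fit (N := N) (𝓡 k) (LinearMap.ker φ) hW R
  refine h.swap (i := Prod.map a1 (Prod.map a2 (j ∘ st))) (r := Prod.map b1 (Prod.map b2 (ist ∘ r)))
    (fun y => ?_) (d1.prodMap (d2.prodMap ((contMDiff_ist (m := 1)).comp h2))) fun y => ?_
  · exact (c1 _).prodMap' ((c2 _).prodMap' ((h1 _ (hR y trivial)).comp _ (contMDiffAt_st (hne y))))
  · refine Prod.ext (e1 _) (Prod.ext (e2 _) ?_)
    change ist (r (j (st (f y).2.2))) = _
    obtain ⟨v, hv⟩ := hf y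
    rw [h3 _ ?_ (hR y trivial), hv, st_ist]
    rw [hv, st_ist]
    change (v - v 0 • P.bas 0) 0 = 0
    rw [PiLp.sub_apply, P.cc_smul_bas_apply, sub_self]

theorem good_fM (P : Par) : Good ((𝓡 1).prod ((𝓡 2).prod (𝓡 (2 * P.p))))
    (⟨P.fM, P.fM_continuous⟩ : C(_, _)) := by
  obtain ⟨x, hx⟩ := P.hasEigenvalue_two.exists_hasEigenvector
  refine ⟨P.fM_contMDiff, fun ε hε => ?_, x, hx.2, Module.End.mem_eigenspace_iff.1 hx.1⟩
  obtain ⟨T, U, hU, hT⟩ := P.fM_exceptional hε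
  refine poly_of_visits (fun ζ => P.ω * ζ) (isometry_rot _) P.fM (fun _ => rfl) (nor, sou)
    (fun x hx => ?_) ε hε T U hU fun x B hB => ?_
  · change P.fib x.1 x.2.1 x.2.2 = _
    rw [hx]
    exact P.fib_nor _ _
  · obtain ⟨E, hE, hE2⟩ := hT x (B.sup id + 1)
    refine (Finset.card_le_card fun j hj => ?_).trans hE
    by_contra hjE
    rcases hE2 j (Nat.lt_succ_of_le (Finset.le_sup (f := id) hj)) hjE with h | h
    · exact (hB j hj).1 h
    · exact (hB j hj).2 h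

theorem sou_eq (P : Par) : (sou : Sph P.V) = ist (P.hat 0) := by
  rw [show P.hat 0 = 0 by simp [Par.hat], ist_zero]

theorem products {a : ℕ} (ha : a = 1 ∨ a = 3) {k : ℕ} (hk : 8 ≤ k) (N : Type) [MetricSpace N]
    [ChartedSpace (EuclideanSpace ℝ (Fin k)) N] [IsManifold (𝓡 k) ∞ N] [CompactSpace N]
    [Nonempty N] : ∃ g : C(Def.Sp a × Def.Sp 2 × N, Def.Sp a × Def.Sp 2 × N),
      Good ((𝓡 a).prod ((𝓡 2).prod (𝓡 k))) g := by
  obtain ⟨P, hP⟩ := exists_Par
  rcases ha with rfl | rfl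
  · have := finrank_real_complex_fact'
    refine move (E := ℂ) hP (good_fM P) (fun y => ?_) hk N
    change ∃ v, (P.fib y.1 y.2.1 y.2.2).2 = _
    unfold Par.fib
    split_ifs
    · exact ⟨_, rfl⟩
    · exact ⟨0, sou_eq P⟩
  · refine move (E := E4) hP (f := gC P) ⟨gM_contMDiff P, gM_poly P, exists_eigen P⟩
      (fun y => ?_) hk N
    change ∃ v, (gM P y).2.2 = _
    rw [gM]
    split_ifs
    · exact ⟨_, rfl⟩
    · exact ⟨0, sou_eq P⟩

theorem nonempty_Sp (n : ℕ) : Nonempty (Def.Sp n) := ⟨⟨EuclideanSpace.single 0 1, by simp⟩⟩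

theorem spheres {a : ℕ} (ha : a = 1 ∨ a = 3) {k : ℕ} (hk : 8 ≤ k) :
    ∃ _ : ChartedSpace (EuclideanSpace ℝ (Fin (a + 2 + k))) (Def.Sp a × Def.Sp 2 × Def.Sp k),
      IsManifold (𝓡 (a + 2 + k)) ∞ (Def.Sp a × Def.Sp 2 × Def.Sp k) ∧
      Def.Fails (𝓡 (a + 2 + k)) (a + 2 + k) (Def.Sp a × Def.Sp 2 × Def.Sp k) := by
  have := nonempty_Sp
  obtain ⟨g, h1, h2⟩ := products ha hk (Def.Sp k)
  let L : (EuclideanSpace ℝ (Fin a) × EuclideanSpace ℝ (Fin 2) × EuclideanSpace ℝ (Fin k))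
      ≃L[ℝ] EuclideanSpace ℝ (Fin (a + 2 + k)) :=
    ContinuousLinearEquiv.ofFinrankEq (by simp; omega)
  have h0 : (((𝓡 a).prod ((𝓡 2).prod (𝓡 k))).transContinuousLinearEquiv L).Boundaryless :=
    ⟨by rw [ModelWithCorners.transContinuousLinearEquiv_range,
      ModelWithCorners.range_eq_univ, image_univ, L.surjective.range_eq]⟩
  obtain ⟨c, h4, h5⟩ := rechart (M := Def.Sp a × Def.Sp 2 × Def.Sp k)
    (((𝓡 a).prod ((𝓡 2).prod (𝓡 k))).transContinuousLinearEquiv L)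
  refine ⟨c, h4, Good.fails (f := g) ⟨h5 _ ?_, h2⟩ (by omega)⟩
  rw [L.contMDiff_transContinuousLinearEquiv_left, L.contMDiff_transContinuousLinearEquiv_right]
  exact h1

theorem connected_Sp {n : ℕ} (hn : 1 ≤ n) : ConnectedSpace (Def.Sp n) := by
  apply connectedSpace_sphere
  rw [← finrank_eq_rank, finrank_euclideanSpace_fin]
  exact_mod_cast Nat.lt_succ_of_le hn

theorem simplyConnected_Sp {n : ℕ} (hn : 2 ≤ n) : SimplyConnectedSpace (Def.Sp n) :=
  P216.SCS.simplyConnected_of_finrank (by rw [finrank_euclideanSpace_fin]; omega)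

theorem simplyConnected_prod {X Z : Type} [TopologicalSpace X] [TopologicalSpace Z]
    (hX : SimplyConnectedSpace X) (hZ : SimplyConnectedSpace Z) : SimplyConnectedSpace (X × Z) := by
  rw [simply_connected_iff_paths_homotopic']
  refine ⟨inferInstance, fun {x y} p q => ?_⟩
  obtain ⟨h1⟩ := SimplyConnectedSpace.paths_homotopic (p.map continuous_fst) (q.map continuous_fst)
  obtain ⟨h2⟩ := SimplyConnectedSpace.paths_homotopic (p.map continuous_snd) (q.map continuous_snd)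
  exact ⟨Path.Homotopic.prodHomotopy h1 h2⟩

theorem dims {m : ℕ} (hm : 11 ≤ m) : ∃ (M : Type) (_ : MetricSpace M)
    (_ : ChartedSpace (EuclideanSpace ℝ (Fin m)) M), IsManifold (𝓡 m) ∞ M ∧ CompactSpace M ∧
    ConnectedSpace M ∧ (13 ≤ m → SimplyConnectedSpace M) ∧ Def.Fails (𝓡 m) m M := by
  rcases lt_or_ge m 13 with h | h
  · obtain ⟨k, rfl⟩ : ∃ k, m = 1 + 2 + k := ⟨m - 3, by omega⟩
    obtain ⟨c, h1, h2⟩ := spheres (a := 1) (k := k) (Or.inl rfl) (by omega)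
    have := connected_Sp (n := 1) le_rfl
    have := connected_Sp (n := 2) one_le_two
    have := connected_Sp (n := k) (by omega)
    exact ⟨_, _, c, h1, inferInstance, inferInstance, fun h' => absurd h h'.not_gt, h2⟩
  · obtain ⟨k, rfl⟩ : ∃ k, m = 3 + 2 + k := ⟨m - 5, by omega⟩
    obtain ⟨c, h1, h2⟩ := spheres (a := 3) (k := k) (Or.inr rfl) (by omega)
    have := simplyConnected_prod (simplyConnected_Sp (n := 3) (by omega))
      (simplyConnected_prod (simplyConnected_Sp le_rfl) (simplyConnected_Sp (n := k) (by omega)))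
    exact ⟨_, _, c, h1, inferInstance, inferInstance, fun _ => this, h2⟩

end Vale.Agent.N103X
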